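import Mathlib

/-!
# P365, block Z8: mean of the logarithm of a polynomial under a law with bounded density
-/

set_option linter.all false

namespace P365Z.H869

open MeasureTheory Set Real
open scoped ENNReal

/-- the constant per root -/
noncomputable def Crt (L D : ℝ) : ℝ := 1 + Real.log (6 * L * D)

/-- `ν` is a probability measure carried by `[-L, L]` with density at most `D` -/
structure BL (L D : ℝ) (ν : Measure ℝ) : Prop where
  prob : IsProbabilityMeasure ν
  supp : ∀ᵐ v ∂ν, |v| ≤ L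
  dens : ν ≤ ENNReal.ofReal D • (volume : Measure ℝ)

theorem lintegral_log_unit :
    ∫⁻ u : ℝ in Icc (-1) 1, ENNReal.ofReal (-Real.log |u|) ≤ 2 := by
  have h0 : ∫ u : ℝ in (0:ℝ)..1, Real.log u = -1 := by
    rw [integral_log]; simp
  have hint : IntervalIntegrable Real.log volume (-1) 1 := intervalIntegral.intervalIntegrable_log'
  have h1 : ∫ u : ℝ in (-1:ℝ)..1, Real.log u = -2 := by
    rw [integral_log]; simp; norm_num
  have hle : (-1:ℝ) ≤ 1 := by norm_num
  have h2 : ∫ u : ℝ in Ioc (-1:ℝ) 1, -Real.log u = 2 := by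
    rw [integral_neg, ← intervalIntegral.integral_of_le hle, h1]; norm_num
  have hI : IntegrableOn (fun u : ℝ => -Real.log u) (Ioc (-1:ℝ) 1) volume :=
    ((intervalIntegrable_iff_integrableOn_Ioc_of_le hle).1 hint).neg
  have h3 : ∫⁻ u : ℝ in Ioc (-1:ℝ) 1, ENNReal.ofReal (-Real.log u) = ENNReal.ofReal 2 := by
    rw [← h2, ofReal_integral_eq_lintegral_ofReal hI]
    refine (ae_restrict_iff' measurableSet_Ioc).2 (Filter.Eventually.of_forall fun u hu => ?_)
    have : Real.log u ≤ 0 := by
      rw [← Real.log_abs]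
      exact Real.log_nonpos (abs_nonneg _) (abs_le.2 ⟨hu.1.le, hu.2⟩)
    simpa using this
  calc ∫⁻ u : ℝ in Icc (-1) 1, ENNReal.ofReal (-Real.log |u|)
      = ∫⁻ u : ℝ in Ioc (-1:ℝ) 1, ENNReal.ofReal (-Real.log u) := by
        rw [Measure.restrict_congr_set Ioc_ae_eq_Icc.symm]
        simp
    _ ≤ 2 := by rw [h3]; simp

/-- `∫ log⁺ (1 / (2 D |v - x|)) dν ≤ 1` -/
theorem lintegral_logp {D : ℝ} (hD : 0 < D) {ν : Measure ℝ}
    (hν : ν ≤ ENNReal.ofReal D • (volume : Measure ℝ)) (x : ℝ) :
    ∫⁻ v, ENNReal.ofReal (-Real.log (2 * D * |v - x|)) ∂ν ≤ 1 := by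
  have h2D : (0:ℝ) < 2 * D := by positivity
  calc ∫⁻ v, ENNReal.ofReal (-Real.log (2 * D * |v - x|)) ∂ν
      ≤ ∫⁻ v, ENNReal.ofReal (-Real.log (2 * D * |v - x|)) ∂(ENNReal.ofReal D • (volume : Measure ℝ)) :=
        lintegral_mono' hν le_rfl
    _ = ENNReal.ofReal D * ∫⁻ v, ENNReal.ofReal (-Real.log (2 * D * |v - x|)) := by
        rw [lintegral_smul_measure]; rfl
    _ = ENNReal.ofReal D * ∫⁻ v, ENNReal.ofReal (-Real.log |(2 * D) * v|) := by
        congr 1
        rw [← lintegral_sub_right_eq_self (fun v => ENNReal.ofReal (-Real.log |(2 * D) * v|)) x]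
        refine lintegral_congr fun v => ?_
        rw [abs_mul, abs_of_pos h2D]
    _ = ENNReal.ofReal D * (ENNReal.ofReal (2 * D)⁻¹ * ∫⁻ u, ENNReal.ofReal (-Real.log |u|)) := by
        congr 1
        have hmeas : Measurable fun u : ℝ => ENNReal.ofReal (-Real.log |u|) := by fun_prop
        have h3 : ∫⁻ v, ENNReal.ofReal (-Real.log |(2 * D) * v|) =
            ∫⁻ u, ENNReal.ofReal (-Real.log |u|) ∂(Measure.map (fun v => (2 * D) * v) volume) := by
          rw [lintegral_map hmeas (by fun_prop)]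
        rw [h3, Real.map_volume_mul_left h2D.ne', lintegral_smul_measure,
          abs_of_pos (inv_pos.2 h2D)]
        rfl
    _ ≤ ENNReal.ofReal D * (ENNReal.ofReal (2 * D)⁻¹ * 2) := by
        gcongr
        calc ∫⁻ u, ENNReal.ofReal (-Real.log |u|)
            = ∫⁻ u, (Icc (-1:ℝ) 1).indicator (fun u => ENNReal.ofReal (-Real.log |u|)) u := by
              refine lintegral_congr fun u => ?_
              by_cases hu : u ∈ Icc (-1:ℝ) 1
              · rw [indicator_of_mem hu]
              · rw [indicator_of_notMem hu]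
                have : 1 < |u| := by
                  by_contra hcon
                  exact hu (abs_le.1 (not_lt.1 hcon))
                rw [ENNReal.ofReal_eq_zero]
                have := Real.log_pos this
                linarith
          _ = ∫⁻ u in Icc (-1:ℝ) 1, ENNReal.ofReal (-Real.log |u|) := by
              rw [lintegral_indicator measurableSet_Icc]
          _ ≤ 2 := lintegral_log_unit
    _ = 1 := by
        rw [← mul_assoc, ← ENNReal.ofReal_mul hD.le]
        have : D * (2 * D)⁻¹ = 1 / 2 := by field_simp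
        rw [this]
        have h : ENNReal.ofReal (1 / 2) * 2 = ENNReal.ofReal (1/2 * 2) := by
          rw [ENNReal.ofReal_mul (by norm_num)]; simp
        rw [h]; norm_num

theorem BL.D_pos {L D : ℝ} {ν : Measure ℝ} (h : BL L D ν) : 0 < D := by
  by_contra hcon
  have h1 : ν ≤ 0 := by
    have := h.dens
    rwa [ENNReal.ofReal_of_nonpos (not_lt.1 hcon), zero_smul] at this
  have h2 := h1 univ
  have := h.prob.measure_univ
  rw [this] at h2
  simp at h2

theorem BL.one_le {L D : ℝ} {ν : Measure ℝ} (h : BL L D ν) : 1 ≤ 2 * L * D ∧ 0 < L := by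
  have hD := h.D_pos
  have h1 : ν (Icc (-L) L) = 1 := by
    have := h.prob
    rw [prob_compl_eq_zero_iff measurableSet_Icc |>.symm]
    have h2 := h.supp
    rw [ae_iff] at h2
    refine measure_mono_null (fun v hv => ?_) h2
    intro hcon
    exact hv (abs_le.1 hcon)
  have h2 := h.dens (Icc (-L) L)
  rw [h1] at h2
  simp only [Measure.smul_apply, Real.volume_Icc, smul_eq_mul] at h2
  rw [← ENNReal.ofReal_mul hD.le] at h2
  have h3 : 1 ≤ D * (L - -L) := by
    rw [← ENNReal.ofReal_one] at h2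
    by_contra hcon
    push Not at hcon
    rw [ENNReal.ofReal_le_ofReal_iff'] at h2
    rcases h2 with h2 | h2 <;> linarith
  have h4 : 1 ≤ 2 * L * D := by linarith
  refine ⟨h4, ?_⟩
  by_contra hcon
  push Not at hcon
  nlinarith

theorem Crt_ge {L D : ℝ} (h : 1 ≤ 2 * L * D) : 1 + Real.log 3 ≤ Crt L D := by
  unfold Crt
  have : Real.log 3 ≤ Real.log (6 * L * D) := Real.log_le_log (by norm_num) (by linarith)
  linarith

/-- **one root** -/
theorem one_root {L D : ℝ} {ν : Measure ℝ} (h : BL L D ν) (a : ℂ) :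
    (∀ᵐ v : ℝ ∂ν, Real.log ‖(v : ℂ) - a‖ ≤ Real.log (‖a‖ + L)) ∧
    ∫⁻ v : ℝ, ENNReal.ofReal (Real.log (‖a‖ + L) - Real.log ‖(v : ℂ) - a‖) ∂ν ≤
      ENNReal.ofReal (Crt L D) := by
  obtain ⟨h1, hL⟩ := h.one_le
  have hD := h.D_pos
  haveI := h.prob
  have haL : 0 < ‖a‖ + L := by positivity
  -- a.e. `v ≠ Re a`
  have hne : ∀ᵐ v : ℝ ∂ν, v ≠ a.re := by
    have : (volume : Measure ℝ) {a.re} = 0 := by simp
    rw [ae_iff]
    have h2 : {v : ℝ | ¬ v ≠ a.re} = {a.re} := by ext; simp
    rw [h2]
    have h3 := h.dens {a.re}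
    simpa using h3
  have hre : ∀ v : ℝ, |v - a.re| ≤ ‖(v : ℂ) - a‖ := by
    intro v
    have := Complex.abs_re_le_norm ((v : ℂ) - a)
    simpa using this
  refine ⟨?_, ?_⟩
  · filter_upwards [h.supp, hne] with v hv hv2
    have h3 : 0 < ‖(v : ℂ) - a‖ := lt_of_lt_of_le (abs_pos.2 (sub_ne_zero.2 hv2)) (hre v)
    refine Real.log_le_log h3 ?_
    calc ‖(v : ℂ) - a‖ ≤ ‖(v : ℂ)‖ + ‖a‖ := norm_sub_le _ _
      _ = |v| + ‖a‖ := by simp
      _ ≤ ‖a‖ + L := by linarith
  · have key : ∀ᵐ v : ℝ ∂ν, Real.log (‖a‖ + L) - Real.log ‖(v : ℂ) - a‖ ≤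
        Real.log (6 * L * D) + max 0 (-Real.log (2 * D * |v - a.re|)) := by
      filter_upwards [h.supp, hne] with v hv hv2
      have h3 : 0 < |v - a.re| := abs_pos.2 (sub_ne_zero.2 hv2)
      have h4 : 0 < ‖(v : ℂ) - a‖ := h3.trans_le (hre v)
      have hl3 : Real.log 3 ≤ Real.log (6 * L * D) := Real.log_le_log (by norm_num) (by linarith)
      have hmax : 0 ≤ max 0 (-Real.log (2 * D * |v - a.re|)) := le_max_left _ _
      rcases le_or_gt (2 * L) ‖a‖ with hc | hc
      · have h5 : (‖a‖ + L) / 3 ≤ ‖(v : ℂ) - a‖ := by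
          have : ‖a‖ - ‖(v : ℂ)‖ ≤ ‖(v : ℂ) - a‖ := by
            rw [norm_sub_rev]; exact norm_sub_norm_le _ _
          have h6 : ‖(v : ℂ)‖ = |v| := by simp
          rw [h6] at this
          linarith
        have h6 : Real.log ((‖a‖ + L) / 3) ≤ Real.log ‖(v : ℂ) - a‖ :=
          Real.log_le_log (by positivity) h5
        rw [Real.log_div haL.ne' (by norm_num)] at h6
        linarith
      · have h5 : Real.log (‖a‖ + L) ≤ Real.log (3 * L) :=
          Real.log_le_log haL (by linarith)
        have h6 : Real.log |v - a.re| ≤ Real.log ‖(v : ℂ) - a‖ := Real.log_le_log h3 (hre v)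
        have h7 : Real.log (6 * L * D) = Real.log (3 * L) + Real.log (2 * D) := by
          rw [← Real.log_mul (by positivity) (by positivity)]; ring_nf
        have h8 : Real.log (2 * D * |v - a.re|) = Real.log (2 * D) + Real.log |v - a.re| :=
          Real.log_mul (by positivity) h3.ne'
        have h9 : -Real.log (2 * D * |v - a.re|) ≤ max 0 (-Real.log (2 * D * |v - a.re|)) :=
          le_max_right _ _
        linarith
    calc ∫⁻ v : ℝ, ENNReal.ofReal (Real.log (‖a‖ + L) - Real.log ‖(v : ℂ) - a‖) ∂ν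
        ≤ ∫⁻ v : ℝ, (ENNReal.ofReal (Real.log (6 * L * D)) +
            ENNReal.ofReal (-Real.log (2 * D * |v - a.re|))) ∂ν := by
          refine lintegral_mono_ae ?_
          filter_upwards [key] with v hv
          refine (ENNReal.ofReal_le_ofReal hv).trans ?_
          refine (ENNReal.ofReal_add_le).trans ?_
          refine add_le_add le_rfl ?_
          rw [ENNReal.ofReal_max]
          simp
      _ = ENNReal.ofReal (Real.log (6 * L * D)) +
            ∫⁻ v, ENNReal.ofReal (-Real.log (2 * D * |v - a.re|)) ∂ν := by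
          rw [lintegral_add_left measurable_const]
          simp
      _ ≤ ENNReal.ofReal (Real.log (6 * L * D)) + 1 := by
          gcongr
          exact lintegral_logp hD h.dens a.re
      _ = ENNReal.ofReal (Crt L D) := by
          unfold Crt
          have hl : 0 ≤ Real.log (6 * L * D) := Real.log_nonneg (by linarith)
          rw [add_comm (1:ℝ), ENNReal.ofReal_add hl zero_le_one, ENNReal.ofReal_one]

end P365Z.H869
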