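import Vale.Agent.P365.Z0.H869.LogOne

/-!
# P365, block Z8: mean of the logarithm of a polynomial, one variable, and transfer of the law
-/

set_option linter.all false

namespace P365Z.H869

open MeasureTheory Set Real Polynomial
open scoped ENNReal

theorem Crt_nonneg {L D : ℝ} (h : 1 ≤ 2 * L * D) : 0 ≤ Crt L D := by
  have h1 := Crt_ge h
  have h2 : 0 ≤ Real.log 3 := Real.log_nonneg (by norm_num)
  linarith

theorem BL.ae_ne {L D : ℝ} {ν : Measure ℝ} (h : BL L D ν) (a : ℂ) :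
    ∀ᵐ v : ℝ ∂ν, (v : ℂ) - a ≠ 0 := by
  have h3 := h.dens {a.re}
  have h4 : ν {a.re} = 0 := by simpa using h3
  rw [ae_iff]
  refine measure_mono_null (fun v hv => ?_) h4
  simp only [ne_eq, not_not, mem_setOf_eq] at hv
  have := sub_eq_zero.1 hv
  simp [← this]

/-- **several roots** -/
theorem many_roots {L D : ℝ} {ν : Measure ℝ} (h : BL L D ν) (s : Multiset ℂ) :
    (∀ᵐ v : ℝ ∂ν, (s.map fun a => Real.log ‖(v : ℂ) - a‖).sum ≤
      (s.map fun a => Real.log (‖a‖ + L)).sum) ∧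
    ∫⁻ v : ℝ, ENNReal.ofReal ((s.map fun a => Real.log (‖a‖ + L)).sum -
      (s.map fun a => Real.log ‖(v : ℂ) - a‖).sum) ∂ν ≤
      ENNReal.ofReal (Multiset.card s * Crt L D) := by
  obtain ⟨h1, hL⟩ := h.one_le
  have hC := Crt_nonneg h1
  induction s using Multiset.induction_on with
  | empty => simp
  | cons a s ih =>
    obtain ⟨i1, i2⟩ := ih
    obtain ⟨o1, o2⟩ := one_root h a
    refine ⟨?_, ?_⟩
    · filter_upwards [i1, o1] with v hv1 hv2
      simp only [Multiset.map_cons, Multiset.sum_cons]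
      linarith
    · calc ∫⁻ v : ℝ, ENNReal.ofReal (((a ::ₘ s).map fun a => Real.log (‖a‖ + L)).sum -
            ((a ::ₘ s).map fun a => Real.log ‖(v : ℂ) - a‖).sum) ∂ν
          ≤ ∫⁻ v : ℝ, (ENNReal.ofReal (Real.log (‖a‖ + L) - Real.log ‖(v : ℂ) - a‖) +
              ENNReal.ofReal ((s.map fun a => Real.log (‖a‖ + L)).sum -
                (s.map fun a => Real.log ‖(v : ℂ) - a‖).sum)) ∂ν := by
            refine lintegral_mono fun v => ?_
            refine le_trans (le_of_eq ?_) ENNReal.ofReal_add_le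
            congr 1
            simp only [Multiset.map_cons, Multiset.sum_cons]
            ring
        _ = ∫⁻ v : ℝ, ENNReal.ofReal (Real.log (‖a‖ + L) - Real.log ‖(v : ℂ) - a‖) ∂ν +
              ∫⁻ v : ℝ, ENNReal.ofReal ((s.map fun a => Real.log (‖a‖ + L)).sum -
                (s.map fun a => Real.log ‖(v : ℂ) - a‖).sum) ∂ν := by
            refine lintegral_add_left ?_ _
            fun_prop
        _ ≤ ENNReal.ofReal (Crt L D) + ENNReal.ofReal (Multiset.card s * Crt L D) :=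
            add_le_add o2 i2
        _ = ENNReal.ofReal (Multiset.card (a ::ₘ s) * Crt L D) := by
            rw [← ENNReal.ofReal_add hC (by positivity)]
            congr 1
            simp only [Multiset.card_cons]
            push_cast
            ring

/-- reference value of `log |P|` on `[-L, L]` -/
noncomputable def Qv (L : ℝ) (P : ℂ[X]) : ℝ :=
  Real.log ‖P.leadingCoeff‖ + (P.roots.map fun a => Real.log (‖a‖ + L)).sum

theorem log_eval {P : ℂ[X]} (hP : P ≠ 0) {v : ℝ} (hv : ∀ a ∈ P.roots, (v : ℂ) - a ≠ 0) :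
    Real.log ‖P.eval (v : ℂ)‖ =
      Real.log ‖P.leadingCoeff‖ + (P.roots.map fun a => Real.log ‖(v : ℂ) - a‖).sum := by
  have hs : P = C P.leadingCoeff * (P.roots.map fun a => X - C a).prod :=
    (IsAlgClosed.splits P).eq_prod_roots
  have h1 : P.eval (v : ℂ) = P.leadingCoeff * (P.roots.map fun a => (v : ℂ) - a).prod := by
    conv_lhs => rw [hs]
    rw [eval_mul, eval_C, eval_multiset_prod, Multiset.map_map]
    congr 2
    refine Multiset.map_congr rfl fun a _ => ?_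
    simp
  have hlc : ‖P.leadingCoeff‖ ≠ 0 := by simpa using hP
  have h2 : ∀ s : Multiset ℂ, (∀ a ∈ s, (v : ℂ) - a ≠ 0) →
      (s.map fun a => (v : ℂ) - a).prod ≠ 0 ∧
      Real.log ‖(s.map fun a => (v : ℂ) - a).prod‖ = (s.map fun a => Real.log ‖(v : ℂ) - a‖).sum := by
    intro s
    induction s using Multiset.induction_on with
    | empty => simp
    | cons a s ih =>
      intro hs
      obtain ⟨j1, j2⟩ := ih fun b hb => hs b (Multiset.mem_cons_of_mem hb)
      have ha := hs a (Multiset.mem_cons_self _ _)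
      simp only [Multiset.map_cons, Multiset.prod_cons, Multiset.sum_cons]
      refine ⟨mul_ne_zero ha j1, ?_⟩
      rw [norm_mul, Real.log_mul (norm_ne_zero_iff.2 ha) (norm_ne_zero_iff.2 j1), j2]
  obtain ⟨h3, h4⟩ := h2 P.roots hv
  rw [h1, norm_mul, Real.log_mul hlc (norm_ne_zero_iff.2 h3), h4]

theorem BL.ae_roots {L D : ℝ} {ν : Measure ℝ} (h : BL L D ν) (s : Multiset ℂ) :
    ∀ᵐ v : ℝ ∂ν, ∀ a ∈ s, (v : ℂ) - a ≠ 0 := by
  induction s using Multiset.induction_on with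
  | empty => simp
  | cons a s ih =>
    filter_upwards [ih, h.ae_ne a] with v hv hv2 b hb
    rcases Multiset.mem_cons.1 hb with rfl | hb
    · exact hv2
    · exact hv b hb

/-- **one polynomial** -/
theorem log_poly {L D : ℝ} {ν : Measure ℝ} (h : BL L D ν) {P : ℂ[X]} (hP : P ≠ 0) {k : ℕ}
    (hk : P.natDegree ≤ k) :
    Integrable (fun v : ℝ => Real.log ‖P.eval (v : ℂ)‖) ν ∧
      ∫ v : ℝ, Real.log ‖P.eval (v : ℂ)‖ ∂ν ≤ Qv L P ∧
      Qv L P - k * Crt L D ≤ ∫ v : ℝ, Real.log ‖P.eval (v : ℂ)‖ ∂ν := by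
  obtain ⟨h1, hL⟩ := h.one_le
  have hC := Crt_nonneg h1
  haveI := h.prob
  obtain ⟨m1, m2⟩ := many_roots h P.roots
  have hcard : (Multiset.card P.roots : ℝ) ≤ k := by
    exact_mod_cast (card_roots' P).trans hk
  have hae : ∀ᵐ v : ℝ ∂ν, Real.log ‖P.eval (v : ℂ)‖ =
      Real.log ‖P.leadingCoeff‖ + (P.roots.map fun a => Real.log ‖(v : ℂ) - a‖).sum := by
    filter_upwards [h.ae_roots P.roots] with v hv
    exact log_eval hP hv
  have hnn : ∀ᵐ v : ℝ ∂ν, 0 ≤ Qv L P - Real.log ‖P.eval (v : ℂ)‖ := by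
    filter_upwards [hae, m1] with v hv1 hv2
    rw [hv1]
    unfold Qv
    linarith
  have hmeas : Measurable fun v : ℝ => Qv L P - Real.log ‖P.eval (v : ℂ)‖ := by
    have : Continuous fun v : ℝ => P.eval (v : ℂ) := P.continuous.comp Complex.continuous_ofReal
    exact measurable_const.sub (Real.measurable_log.comp this.norm.measurable)
  have hlt : ∫⁻ v : ℝ, ENNReal.ofReal (Qv L P - Real.log ‖P.eval (v : ℂ)‖) ∂ν ≤
      ENNReal.ofReal (k * Crt L D) := by
    refine le_trans (le_of_eq ?_) (m2.trans ?_)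
    · refine lintegral_congr_ae ?_
      filter_upwards [hae] with v hv
      rw [hv]
      unfold Qv
      congr 1
      ring
    · exact ENNReal.ofReal_le_ofReal (mul_le_mul_of_nonneg_right hcard hC)
  have hint : Integrable (fun v : ℝ => Qv L P - Real.log ‖P.eval (v : ℂ)‖) ν := by
    refine ⟨hmeas.aestronglyMeasurable, ?_⟩
    rw [hasFiniteIntegral_iff_ofReal hnn]
    exact hlt.trans_lt ENNReal.ofReal_lt_top
  have hint2 : Integrable (fun v : ℝ => Real.log ‖P.eval (v : ℂ)‖) ν := by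
    have h8 := (integrable_const (Qv L P)).sub hint
    refine h8.congr (Filter.Eventually.of_forall fun v => ?_)
    simp
  have h5 : ∫ v : ℝ, (Qv L P - Real.log ‖P.eval (v : ℂ)‖) ∂ν =
      Qv L P - ∫ v : ℝ, Real.log ‖P.eval (v : ℂ)‖ ∂ν := by
    rw [integral_sub (integrable_const _) hint2]
    simp
  have h6 : 0 ≤ ∫ v : ℝ, (Qv L P - Real.log ‖P.eval (v : ℂ)‖) ∂ν := integral_nonneg_of_ae hnn
  have h7 : ∫ v : ℝ, (Qv L P - Real.log ‖P.eval (v : ℂ)‖) ∂ν ≤ k * Crt L D := by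
    rw [integral_eq_lintegral_of_nonneg_ae hnn hmeas.aestronglyMeasurable]
    exact ENNReal.toReal_le_of_le_ofReal (by positivity) hlt
  refine ⟨hint2, ?_, ?_⟩ <;> linarith

/-- **transfer, one polynomial**: two laws -/
theorem log_poly_transfer {L D D' : ℝ} {ν ν' : Measure ℝ} (h : BL L D ν) (h' : BL L D' ν')
    {P : ℂ[X]} (hP : P ≠ 0) {k : ℕ} (hk : P.natDegree ≤ k) :
    |∫ v : ℝ, Real.log ‖P.eval (v : ℂ)‖ ∂ν - ∫ v : ℝ, Real.log ‖P.eval (v : ℂ)‖ ∂ν'| ≤
      k * max (Crt L D) (Crt L D') := by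
  obtain ⟨-, a1, a2⟩ := log_poly h hP hk
  obtain ⟨-, b1, b2⟩ := log_poly h' hP hk
  have h1 : k * Crt L D ≤ k * max (Crt L D) (Crt L D') :=
    mul_le_mul_of_nonneg_left (le_max_left _ _) (Nat.cast_nonneg _)
  have h2 : k * Crt L D' ≤ k * max (Crt L D) (Crt L D') :=
    mul_le_mul_of_nonneg_left (le_max_right _ _) (Nat.cast_nonneg _)
  rw [abs_le]
  constructor <;> linarith

/-- **transfer, quotient of two polynomials** -/
theorem log_quot_transfer {L D D' : ℝ} {ν ν' : Measure ℝ} (h : BL L D ν) (h' : BL L D' ν')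
    {P Q : ℂ[X]} (hP : P ≠ 0) (hQ : Q ≠ 0) {k : ℕ} (hk : P.natDegree ≤ k) (hk' : Q.natDegree ≤ k)
    {f : ℝ → ℝ} (hf : ∀ v, |v| ≤ L → Q.eval (v : ℂ) ≠ 0 → 0 < f v ∧
      f v * ‖Q.eval (v : ℂ)‖ = ‖P.eval (v : ℂ)‖) :
    |∫ v : ℝ, Real.log (f v) ∂ν - ∫ v : ℝ, Real.log (f v) ∂ν'| ≤
      2 * k * max (Crt L D) (Crt L D') := by
  have key : ∀ {D : ℝ} {ν : Measure ℝ}, BL L D ν →
      ∫ v : ℝ, Real.log (f v) ∂ν = ∫ v : ℝ, Real.log ‖P.eval (v : ℂ)‖ ∂ν -
        ∫ v : ℝ, Real.log ‖Q.eval (v : ℂ)‖ ∂ν := by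
    intro D ν h
    obtain ⟨i1, -, -⟩ := log_poly h hP hk
    obtain ⟨i2, -, -⟩ := log_poly h hQ hk'
    rw [← integral_sub i1 i2]
    refine integral_congr_ae ?_
    filter_upwards [h.supp, h.ae_roots Q.roots] with v hv hv2
    have hq : Q.eval (v : ℂ) ≠ 0 := by
      intro hcon
      have := (mem_roots hQ).2 hcon
      exact hv2 _ this (sub_self _)
    obtain ⟨f1, f2⟩ := hf v hv hq
    show Real.log (f v) = Real.log ‖P.eval (v : ℂ)‖ - Real.log ‖Q.eval (v : ℂ)‖
    rw [← f2, Real.log_mul f1.ne' (norm_ne_zero_iff.2 hq)]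
    ring
  rw [key h, key h']
  have t1 := log_poly_transfer h h' hP hk
  have t2 := log_poly_transfer h h' hQ hk'
  rw [abs_le] at t1 t2 ⊢
  constructor <;> linarith [t1.1, t1.2, t2.1, t2.2]

end P365Z.H869
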